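import Vale.Agent.P354CB.Defs2
import Vale.Agent.P354J.Fr

/-!
The data induced along a spacelike immersion near a point.
-/

set_option maxSynthPendingDepth 3

open scoped ContDiff
open Set Filter Topology Metric Matrix

namespace Vale.Agent.P354CB71

open Vale.Agent.P354n
open Vale.Agent.P354I (X Dat pd ee)
open Vale.Agent.P354J (PDy)
open Vale.Agent.P354XE (Tw Lor)
open Vale.Agent.P354RC
open Vale.Agent.P354YC (IndAt Sp b_sum sum_ee)
open Vale.Agent.P354XK (x_pd pd_sym)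
open Vale.Agent.P354XJ (bilin_of)

abbrev M3 : Type := Matrix (Fin 3) (Fin 3) ℝ

/-- Germs of data extend to smooth data. -/
theorem cut {H K : X → M3} {y : X} (k : ∀ᶠ x in 𝓝 y, (∀ i j, ContDiffAt ℝ ∞ (fun z => H z i j) x ∧
    ContDiffAt ℝ ∞ (fun z => K z i j) x) ∧ (H x).PosDef ∧ (K x).IsSymm) :
    ∃ d, PDy d ∧ ∀ᶠ x in 𝓝 y, d.h x = H x ∧ d.K x = K x := by
  obtain ⟨r, r0, hr⟩ := Metric.eventually_nhds_iff_ball.1 k
  let χ : ContDiffBump y := ⟨r / 4, r / 2, by positivity, by linarith⟩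
  have s : ∀ (f : X → ℝ), (∀ x ∈ ball y r, ContDiffAt ℝ ∞ f x) →
      ContDiff ℝ ∞ fun z => χ z * f z := fun f hf => contDiff_iff_contDiffAt.2 fun x => by
    by_cases hx : x ∈ tsupport χ
    · rw [χ.tsupport_eq] at hx
      exact χ.contDiff.contDiffAt.mul (hf x (closedBall_subset_ball (half_lt_self r0) hx))
    · refine (contDiffAt_const (c := (0 : ℝ))).congr_of_eventuallyEq ?_
      filter_upwards [notMem_tsupport_iff_eventuallyEq.1 hx] with z hz
      simp [hz]
  have g : ∀ x, χ x ≠ 0 → x ∈ ball y r := fun x hx =>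
    ball_subset_ball (half_le_self r0.le) (χ.support_eq.subset hx)
  refine ⟨⟨fun x => χ x • H x + (1 - χ x) • 1, fun x => χ x • K x⟩, ⟨fun i j => ⟨?_, ?_⟩,
    fun x _ => ?_⟩, ?_⟩
  · exact ((s _ fun x hx => ((hr x hx).1 i j).1).add ((contDiff_const.sub χ.contDiff).mul
      (contDiff_const (c := (1 : M3) i j)))).contDiffOn
  · exact (s _ fun x hx => ((hr x hx).1 i j).2).contDiffOn
  · by_cases h0 : χ x = 0
    · simp [h0, PosDef.one]
    · exact ⟨((hr x (g x h0)).2.1.smul (χ.nonneg.lt_of_ne' h0)).add_posSemidef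
        (PosSemidef.one.smul (sub_nonneg.2 χ.le_one)), (hr x (g x h0)).2.2.smul _⟩
  · filter_upwards [χ.eventuallyEq_one] with x hx
    simp [hx]

/-- Positivity is an open condition. -/
theorem pos_ev {A : X → X →L[ℝ] X →L[ℝ] ℝ} {y : X} (c : ContinuousAt A y)
    (p : ∀ u ≠ 0, 0 < A y u u) : ∀ᶠ x in 𝓝 y, ∀ u ≠ 0, 0 < A x u u := by
  have k := (isCompact_sphere (0 : X) 1).eventually_forall_of_forall_eventually (x₀ := y)
    (P := fun x u => 0 < A x u u) fun u hu => by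
      have c' : ContinuousAt (fun q : X × X => A q.1 q.2 q.2) (y, u) :=
        ((c.comp_of_eq continuousAt_fst rfl).clm_apply continuousAt_snd).clm_apply continuousAt_snd
      exact c'.eventually (lt_mem_nhds (p u (ne_zero_of_mem_unit_sphere ⟨u, hu⟩)))
  filter_upwards [k] with x hx u u0
  have n0 := norm_pos_iff.2 u0
  have := hx (‖u‖⁻¹ • u) (by simp [norm_smul, n0.ne'])
  simp only [map_smul, _root_.smul_apply, smul_eq_mul] at this
  exact (mul_pos_iff_of_pos_left (inv_pos.2 n0)).1 ((mul_pos_iff_of_pos_left (inv_pos.2 n0)).1 this)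

section
variable (h : R4 → B2) (J : X → R4) (T : R4) (x : X)

/-- The induced metric. -/
noncomputable def HH : M3 := of fun i k => h (J x) (pd i J x) (pd k J x)

/-- The tangential part of T. -/
noncomputable def cc : Fin 3 → ℝ := (HH h J x)⁻¹ *ᵥ fun i => h (J x) (pd i J x) T

/-- The normal part of T. -/
noncomputable def n0 : R4 := T - ∑ k, cc h J T x k • pd k J x

/-- The unit normal. -/
noncomputable def nn : R4 := (√(-h (J x) (n0 h J T x) (n0 h J T x)))⁻¹ • n0 h J T x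

/-- The second fundamental form. -/
noncomputable def KK : M3 := of fun i k => -(h (J x) (nn h J T x) (pd i (pd k J) x) +
  C1 h (J x) (pd i J x) (pd k J x) (nn h J T x))

end

variable {g : Tw} {D : Set R4} {Xf : R4 → R4} {h : R4 → B2} {J : X → R4} {T : R4} {x : X}

theorem hh_pos (r : Rp g h D) (hD : J x ∈ D)
    (p : ∀ u ≠ 0, 0 < h (J x) (fderiv ℝ J x u) (fderiv ℝ J x u)) : (HH h J x).PosDef := by
  refine PosDef.of_dotProduct_mulVec_pos (Matrix.ext fun i j => r.symm _ hD _ _) fun v v0 => ?_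
  refine (p (WithLp.toLp 2 v) (by simpa using v0)).trans_eq ?_
  rw [← sum_ee (WithLp.toLp 2 v)]
  simp only [map_sum, map_smul, _root_.sum_apply, _root_.smul_apply,
    smul_eq_mul, star_trivial, mulVec, dotProduct, HH, of_apply, pd]
  refine Finset.sum_congr rfl fun i _ => congrArg _ (Finset.sum_congr rfl fun j _ => ?_)
  rw [mul_comm, r.symm _ hD]

theorem n0_nor (p : (HH h J x).PosDef) (i : Fin 3) : h (J x) (pd i J x) (n0 h J T x) = 0 := by
  have e : HH h J x *ᵥ cc h J T x = fun i => h (J x) (pd i J x) T := by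
    rw [cc, mulVec_mulVec, mul_nonsing_inv _ p.det_pos.ne'.isUnit, one_mulVec]
  rw [n0, map_sub, ← congrFun e i]
  simp only [map_sum, map_smul, smul_eq_mul, mulVec, dotProduct, HH, of_apply, mul_comm, sub_self]

theorem n0_neg (r : Rp g h D) (hD : J x ∈ D)
    (p : ∀ u ≠ 0, 0 < h (J x) (fderiv ℝ J x u) (fderiv ℝ J x u)) (t : h (J x) T T < 0) :
    h (J x) (n0 h J T x) (n0 h J T x) < 0 ∧ h (J x) (n0 h J T x) T < 0 := by
  have k := n0_nor (T := T) (hh_pos r hD p)
  set v := ∑ k, cc h J T x k • pd k J x with hv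
  have e : T = n0 h J T x + v := (sub_add_cancel _ _).symm
  have k1 : h (J x) v (n0 h J T x) = 0 := by
    simp only [hv, map_sum, map_smul, _root_.sum_apply,
      _root_.smul_apply, k, smul_zero, Finset.sum_const_zero]
  have k2 : 0 ≤ h (J x) v v := by
    have : v = fderiv ℝ J x (WithLp.toLp 2 (cc h J T x)) := by
      rw [← sum_ee (WithLp.toLp 2 _)]; simp only [hv, map_sum, map_smul, pd]
    rw [this]
    by_cases z : WithLp.toLp 2 (cc h J T x) = (0 : X)
    · simp [z]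
    · exact (p _ z).le
  generalize n0 h J T x = n at *
  rw [e] at t ⊢
  simp only [map_add, _root_.add_apply, r.symm _ hD n v, k1] at t ⊢
  constructor <;> linarith

theorem hh_cd (r : Rp g h D) (hD : J x ∈ D) (hJ : ContDiffAt ℝ ∞ J x) (i k : Fin 3) :
    ContDiffAt ℝ ∞ (fun z => HH h J z i k) x :=
  (((r.at hD).comp x hJ).clm_apply (x_pd hJ i)).clm_apply (x_pd hJ k)

theorem n0_cd (r : Rp g h D) {y : X} (k : ∀ᶠ z in 𝓝 y, J z ∈ D ∧ ContDiffAt ℝ ∞ J z ∧
    (HH h J z).PosDef) : ContDiffAt ℝ ∞ (n0 h J T) y := by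
  obtain ⟨s, hs, so, ys⟩ := _root_.eventually_nhds_iff.1 k
  obtain ⟨hD, hJ, -⟩ := hs y ys
  refine contDiffAt_const.sub (ContDiffAt.sum fun k _ =>
    ContDiffAt.smul (f := fun x => cc h J T x k) ?_ (x_pd hJ k))
  simp only [cc, mulVec, dotProduct]
  refine ContDiffAt.sum fun i _ => ContDiffAt.mul ?_
    ((((r.at hD).comp y hJ).clm_apply (x_pd hJ i)).clm_apply contDiffAt_const)
  exact (P354J.inv_smoothOn (M := HH h J)
    (fun i j z hz => (hh_cd r (hs z hz).1 (hs z hz).2.1 i j).contDiffWithinAt)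
    (fun z hz => (hs z hz).2.2.det_pos.ne') k i).contDiffAt (so.mem_nhds ys)

theorem kk_cd (r : Rp g h D) (hD : J x ∈ D) (hJ : ContDiffAt ℝ ∞ J x)
    (hn : ContDiffAt ℝ ∞ (n0 h J T) x) (q : h (J x) (n0 h J T x) (n0 h J T x) < 0) (i k : Fin 3) :
    ContDiffAt ℝ ∞ (fun z => KK h J T z i k) x := by
  have a : ContDiffAt ℝ ∞ (fun z => h (J z)) x := (r.at hD).comp x hJ
  have b : ContDiffAt ℝ ∞ (fun z => fderiv ℝ h (J z)) x := (at_fd (r.at hD)).comp x hJ
  have n : ContDiffAt ℝ ∞ (nn h J T) x :=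
    ((((a.clm_apply hn).clm_apply hn).neg.sqrt (by linarith)).inv
      (Real.sqrt_pos.2 (neg_pos.2 q)).ne').smul hn
  have p := x_pd hJ
  simp only [KK, of_apply, C1_ap]
  exact (((a.clm_apply n).clm_apply (x_pd (p k) i)).add
    ((((((b.clm_apply (p i)).clm_apply (p k)).clm_apply n).add
      (((b.clm_apply (p k)).clm_apply (p i)).clm_apply n)).sub
      (((b.clm_apply n).clm_apply (p i)).clm_apply (p k))).div_const _)).neg

theorem kk_symm (r : Rp g h D) (hD : J x ∈ D) (hJ : ContDiffAt ℝ ∞ J x) : (KK h J T x).IsSymm :=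
  Matrix.ext fun i j => by
    simp only [transpose_apply, KK, of_apply, C1_ap, pd_sym hJ j i,
      r.dsym hD (nn h J T x) (pd j J x)]
    ring

theorem ind (r : Rp g h D) (hD : J x ∈ D) (p : (HH h J x).PosDef)
    (q : h (J x) (n0 h J T x) (n0 h J T x) < 0) (f : h (J x) (n0 h J T x) (Xf (J x)) < 0)
    {d : Dat} (e : d.h x = HH h J x ∧ d.K x = KK h J T x) : IndAt g Xf J d x := by
  have s := Real.sqrt_pos.2 (neg_pos.2 q)
  have s2 := Real.mul_self_sqrt (neg_pos.2 q).le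
  refine ⟨Gm h, nn h J T x, (r.conn hD).2 fun _ _ => rfl, ?_, ?_, fun i k => ⟨?_, ?_, ?_⟩⟩ <;>
    rw [r.eq _ hD]
  · simp only [nn, map_smul, _root_.smul_apply, smul_eq_mul]
    field_simp
    linarith
  · simp only [nn, map_smul, _root_.smul_apply, smul_eq_mul]
    exact mul_neg_of_pos_of_neg (inv_pos.2 s) f
  · rw [nn, map_smul, n0_nor p, smul_zero]
  · rw [e.1]; rfl
  · rw [e.2, map_add, r.symm _ hD _ (Gm ..), r.gm hD]; rfl

theorem nor_eq {B : R4 → R4 → ℝ} {L : X →L[ℝ] R4} {n n' T : R4} (S : Sp B L n) (S' : Sp B L n')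
    (n1 : B n n = -1) (n1' : B n' n' = -1) (o : B n T < 0) (o' : B n' T < 0) : n' = n := by
  obtain ⟨⟨u, s⟩, hw⟩ := S.surj (v := n) (by rw [n1]; norm_num) n'
  replace hw : L u + s • n = n' := hw
  obtain rfl : u = 0 := by
    by_contra u0
    have k1 := S'.nor u
    rw [← hw, S.bil.add_right, S.bil.smul_right, S.nor] at k1
    linarith [S.pos u u0]
  rw [map_zero, zero_add] at hw
  rw [← hw, S.bil.smul_left, S.bil.smul_right, n1] at n1'
  rw [← hw, S.bil.smul_left] at o'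
  obtain rfl : s = 1 := by nlinarith [pos_of_mul_neg_left o' o.le]
  rw [← hw, one_smul]

theorem ks2 : Vale.Agent.P354CB.KS2 := fun g D Xf L J y hD => by
  obtain ⟨h, r⟩ := rp_of_met L.isOpen L.met
  refine ⟨fun hJ p => ?_, fun d d' hd ⟨G, n, c, n1, o, k⟩ ⟨G', n', c', n1', o', k'⟩ => ?_⟩
  · have hy := hJ.self_of_nhds
    have a : ContinuousAt (fun z => h (J z)) y := ((r.at hD).comp y hy).continuousAt
    have b : ContinuousAt (fderiv ℝ J) y := (hy.fderiv_right (m := ∞) (by simp)).continuousAt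
    have e1 : ∀ᶠ x in 𝓝 y, J x ∈ D := hy.continuousAt.eventually_mem (L.isOpen.mem_nhds hD)
    simp only [r.eq _ hD] at p
    have e2 : ∀ᶠ x in 𝓝 y, ∀ u ≠ 0, 0 < h (J x) (fderiv ℝ J x u) (fderiv ℝ J x u) :=
      pos_ev (A := fun x => (((h (J x)).comp (fderiv ℝ J x)).flip.comp (fderiv ℝ J x)).flip)
        ((ContinuousLinearMap.flipₗᵢ ℝ X X ℝ).continuous.continuousAt.comp
          (((ContinuousLinearMap.flipₗᵢ ℝ X R4 ℝ).continuous.continuousAt.comp
            (a.clm_comp b)).clm_comp b)) p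
    have e3 : ∀ᶠ z in 𝓝 y, J z ∈ D ∧ ContDiffAt ℝ ∞ J z ∧ (HH h J z).PosDef := by
      filter_upwards [e1, e2, hJ] with z a1 a2 a3 using ⟨a1, a3, hh_pos r a1 a2⟩
    have e4 : ∀ᶠ z in 𝓝 y, ContDiffAt ℝ ∞ (n0 h J (Xf (J y))) z :=
      e3.eventually_nhds.mono fun z => n0_cd r
    have n := e4.self_of_nhds.continuousAt
    obtain ⟨q1, q2⟩ := n0_neg r hD p ((r.eq _ hD _ _).symm.trans_lt (L.tl _ hD))
    have e5 := ((a.clm_apply n).clm_apply n).eventually (gt_mem_nhds q1)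
    have e6 := ((a.clm_apply n).clm_apply ((L.cont.continuousAt (L.isOpen.mem_nhds hD)).comp
      hy.continuousAt)).eventually (gt_mem_nhds q2)
    obtain ⟨d, hd, e⟩ := cut (H := HH h J) (K := KK h J (Xf (J y))) (y := y) (by
      filter_upwards [e3, e4, e5] with z a1 a2 a3 using ⟨fun i j => ⟨hh_cd r a1.1 a1.2.1 i j,
        kk_cd r a1.1 a1.2.1 a2 a3 i j⟩, a1.2.2, kk_symm r a1.1 a1.2.1⟩)
    refine ⟨d, hd, ?_⟩
    filter_upwards [e3, e5, e6, e] with z a1 a2 a3 a4 using ind r a1.1 a1.2.2 a2 a3 a4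
  · have e : d.h y = d'.h y := Matrix.ext fun i j => (k i j).2.1.symm.trans (k' i j).2.1
    obtain rfl : n' = n := nor_eq (L := fderiv ℝ J y)
      (.of (bilin_of L hD) (L.met.symm _ hD) hd fun i j => ⟨(k i j).1, (k i j).2.1⟩)
      (.of (bilin_of L hD) (L.met.symm _ hD) (e ▸ hd) fun i j => ⟨(k' i j).1, (k' i j).2.1⟩)
      n1 n1' o o'
    refine ⟨e, Matrix.ext fun i j => ?_⟩
    rw [← (k i j).2.2, ← (k' i j).2.2, (r.conn hD).1 c, (r.conn hD).1 c']

end Vale.Agent.P354CB71
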